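import Vale.Agent.P181.SZR1a.TI
import Vale.Agent.P181.PL.Defs

set_option autoImplicit false

/-!
# P181, DG: Foulkes' inequality near the diagonal, `b ≥ a + √w`

`w` = number of cells below row one. Large letters (sizes `≥ S`) are frozen, the small letters
(sizes `< S`) are translation invariant among themselves. The target is the assembly `AsmR`: the
literal `H467.NT.AsmQ` with `a + Z ≤ b` (`Z = ⌊√w⌋`) instead of `4 a ≤ b`.
-/

open MvPolynomial

namespace Vale.Agent.P181.DG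

open Vale.Agent.P181.T4 (HW ex low)
open Vale.Agent.P181.H280 (plethMult)
open Vale.Agent.P181.H463 (gt)
open Vale.Agent.P181.SZ (nn PT TI tl)
open Vale.Agent.P181.PL (dn)

/-- Highest weight polynomials of weight `mu` in the columns `σ ⊕ Fin t`: degree `d j` in the
large column `j : σ`, degree `< S` in each of the `t` small columns, symmetric in the small
columns, invariant under the permutations of the large columns which preserve `d`, and translation
invariant in the small columns. -/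
noncomputable def PKT (m S : ℕ) (σ : Type) [Fintype σ] (d : σ → ℕ) (t : ℕ) (mu : Fin m → ℕ) :
    Submodule ℂ (MvPolynomial (Fin m × (σ ⊕ Fin t)) ℂ) where
  carrier := {f | f ∈ HW m (σ ⊕ Fin t) mu ∧
    (∀ v, coeff v f ≠ 0 → (∀ j : σ, ∑ i, v (i, Sum.inl j) = d j) ∧
      ∀ j : Fin t, ∑ i, v (i, Sum.inr j) < S) ∧
    (∀ (e : Equiv.Perm σ) (s : Equiv.Perm (Fin t)), (∀ j, d (e j) = d j) →
      rename (fun p : Fin m × (σ ⊕ Fin t) => (p.1, Sum.map e s p.2)) f = f) ∧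
    ∀ i, ∑ j : Fin t, pderiv (i, (Sum.inr j : σ ⊕ Fin t)) f = 0}
  zero_mem' := ⟨zero_mem _, fun v hv => absurd (coeff_zero v) hv, fun e s _ => map_zero _,
    fun i => Finset.sum_eq_zero fun j _ => map_zero _⟩
  add_mem' := by
    rintro f g ⟨hf1, hf2, hf3, hf4⟩ ⟨hg1, hg2, hg3, hg4⟩
    refine ⟨add_mem hf1 hg1, fun v hv => ?_, fun e s he => by
      rw [map_add, hf3 e s he, hg3 e s he], fun i => ?_⟩
    · rw [coeff_add] at hv
      by_cases h : coeff v f = 0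
      · rw [h, zero_add] at hv
        exact hg2 v hv
      · exact hf2 v h
    · have h : ∑ j : Fin t, pderiv (i, (Sum.inr j : σ ⊕ Fin t)) (f + g) =
          ∑ j : Fin t, pderiv (i, (Sum.inr j : σ ⊕ Fin t)) f +
            ∑ j : Fin t, pderiv (i, (Sum.inr j : σ ⊕ Fin t)) g := by
        rw [← Finset.sum_add_distrib]
        exact Finset.sum_congr rfl fun j _ => map_add _ _ _
      rw [h, hf4 i, hg4 i, add_zero]
  smul_mem' := by
    rintro c f ⟨hf1, hf2, hf3, hf4⟩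
    refine ⟨Submodule.smul_mem _ c hf1, fun v hv => ?_, fun e s he => ?_, fun i => ?_⟩
    · rw [coeff_smul, smul_eq_mul] at hv
      exact hf2 v (right_ne_zero_of_mul hv)
    · rw [map_smul, hf3 e s he]
    · have h : ∑ j : Fin t, pderiv (i, (Sum.inr j : σ ⊕ Fin t)) (c • f) =
          c • ∑ j : Fin t, pderiv (i, (Sum.inr j : σ ⊕ Fin t)) f := by
        rw [Finset.smul_sum]
        exact Finset.sum_congr rfl fun j _ => Derivation.map_smul _ _ _
      rw [h, hf4 i, smul_zero]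

/-- The multiplicity of `S_mu` in `⊗_s Sym^(m_s) (Sym^s W) ⊗ T(t)`, `m_s` the multiplicity of `s`
in `kap`, `T(t)` the translation invariant symmetric functions of `t` points, of degree `< S` in
each point. -/
noncomputable def NT (m S : ℕ) (mu : Fin m → ℕ) (kap : Multiset ℕ) (t : ℕ) : ℕ :=
  Module.finrank ℂ (PKT m S (Fin kap.toList.length) (fun j => kap.toList.get j) t mu)

/-- The graded version: exactly `t ≥ 1` small letters. -/
noncomputable def gT (m S : ℕ) (mu : Fin m → ℕ) (kap : Multiset ℕ) (t : ℕ) : ℕ :=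
  NT m S mu kap t - NT m S mu kap (t - 1)

/-- The contents: multisets of sizes `≥ S` with sum `≤ w`. -/
noncomputable def KT (w S : ℕ) : Finset (Multiset ℕ) :=
  (Finset.range (w + 1)).biUnion fun u =>
    ((Finset.univ : Finset (Nat.Partition u)).image Nat.Partition.parts).filter
      fun k => ∀ x ∈ k, S ≤ x

/-- **(D0)** transport. -/
def TransT : Prop := ∀ (m S : ℕ) (σ : Type) [Fintype σ] (d : σ → ℕ) (t : ℕ) (mu : Fin m → ℕ),
  Module.finrank ℂ (PKT m S σ d t mu) = NT m S mu (Finset.univ.val.map d) t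

/-- **(D1)** one more small column. -/
def MonoT : Prop := ∀ (m S : ℕ) (mu : Fin m → ℕ) (kap : Multiset ℕ) (t : ℕ), 1 ≤ S →
  NT m S mu kap t ≤ NT m S mu kap (t + 1)

open scoped Classical in
/-- **(D2)** upper bound: the leading content (largest letters first) of a translation invariant
symmetric polynomial in `a` points is translation invariant in the small columns. -/
def UpT : Prop := ∀ (a b m S : ℕ) (mu : Fin m → ℕ), 1 ≤ S →
  Module.finrank ℂ (TI a b m mu) ≤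
    ∑ kap ∈ (KT (∑ i, mu i) S).filter (fun k => Multiset.card k ≤ a ∧ ∀ x ∈ k, x ≤ b),
      NT m S mu kap (a - Multiset.card kap)

open scoped Classical in
/-- **(D3)** lower bound: each large column `Y` is replaced by `y + y' - 2 y''`, the other
`b - 3 card` columns are the small ones; leading content. -/
def LowT : Prop := ∀ (a b m S : ℕ) (mu : Fin m → ℕ), 2 ≤ S → S ≤ a + 1 →
  ∑ kap ∈ (KT (∑ i, mu i) S).filter (fun k => 3 * Multiset.card k ≤ b ∧ ∀ x ∈ k, x ≤ a),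
      NT m S mu kap (b - 3 * Multiset.card kap) ≤ Module.finrank ℂ (TI b a m mu)

/-- **(D4)** dissolving a letter `k` into new letters `A` and `D` units (`D = 0`: splitting),
graded by the number of small columns. -/
def DisT : Prop := ∀ (m S : ℕ) (mu : Fin m → ℕ) (rho A : Multiset ℕ) (k D t : ℕ), 4 ≤ S →
  0 < k → A.Nodup → (∀ x ∈ A, S ≤ x ∧ x ∉ rho ∧ x ≠ k) → k = A.sum + D →
  (D = 0 ∨ 2 ≤ D ∧ t + 1 ≤ A.sum) →
  NT m S mu (k ::ₘ rho) (t + 1) + NT m S mu (A + rho) (t + D) ≤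
    NT m S mu (k ::ₘ rho) t + NT m S mu (A + rho) (t + 1 + D)

open scoped Classical in
/-- **(D5)** few letters. -/
def FewT : Prop := ∀ (m S J : ℕ) (mu : Fin m → ℕ), 1 ≤ S →
  ∑ kap ∈ (KT (∑ i, mu i) S).filter (fun k => Multiset.card k ≤ J),
      NT m S mu kap (J - Multiset.card kap) ≤ Module.finrank ℂ (HW m (Fin J) mu)

open scoped Classical in
/-- **(D6)** one large letter and small size types with at most `t / 3` letters. -/
def MarkT : Prop := ∀ (m S x t u : ℕ) (mu : Fin m → ℕ), 4 ≤ S → S ≤ x → ∑ i, mu i = u + x →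
  ∑ k ∈ (PT u).filter (fun k => (∀ y ∈ k, y < S) ∧ 3 * Multiset.card k ≤ t),
      nn m mu (x ::ₘ k) ≤ NT m S mu {x} t

/-- The graded dissolving inequality, for an abstract function. -/
def DisG (S : ℕ) (g : Multiset ℕ → ℕ → ℕ) : Prop := ∀ (rho A : Multiset ℕ) (k D t : ℕ), 1 ≤ t →
  0 < k → A.Nodup → (∀ x ∈ A, S ≤ x ∧ x ∉ rho ∧ x ≠ k) → k = A.sum + D →
  (D = 0 ∨ 2 ≤ D ∧ t ≤ A.sum) → g (k ::ₘ rho) t ≤ g (A + rho) (t + D)

/-- The bad states: a letter larger than `a`, at least `J` letters in all. -/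
def BadT (a J : ℕ) (p : Multiset ℕ × ℕ) : Prop :=
  (∃ x ∈ p.1, a < x) ∧ J ≤ Multiset.card p.1 + p.2 ∧ 1 ≤ p.2 ∧ p.2 ≤ a

/-- The good states: sizes `≤ a`, more than `a` letters in all. -/
def GoodT (a : ℕ) (p : Multiset ℕ × ℕ) : Prop :=
  (∀ x ∈ p.1, x ≤ a) ∧ a < Multiset.card p.1 + p.2 ∧ p.2 ≤ a + 1

open scoped Classical in
/-- **(D7)** the flow: pure counting from `DisG`. -/
def FlowT : Prop := ∀ (g : Multiset ℕ → ℕ → ℕ) (a J S K X w : ℕ), DisG S g → 1 ≤ K → 4 ≤ S →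
  4 * K ≤ X → w * X ^ 2 ≤ S ^ 2 → 4 * ((w + 1) * (a + 2)) ≤ X ^ K → (2 * K + 3) * S ≤ J →
  J + 1 ≤ a →
  3 * ∑ p ∈ (KT w S ×ˢ Finset.range (a + 2)).filter (BadT a J), g p.1 p.2 ≤
    ∑ p ∈ (KT w S ×ˢ Finset.range (a + 2)).filter (GoodT a), g p.1 p.2

/-- **(D8)** the assembly: `H467.NT.AsmQ` with `a + Z ≤ b` and `Z * X ^ 2 + 2 ≤ a` instead of
`4 * a ≤ b`, and `3 * (b0 + 1) ≤ a` instead of `3 * (b0 + 1) ≤ b`. -/
def AsmR : Prop := ∀ (a b n R X Z K w a0 b0 : ℕ) (lam nu : Fin n → ℕ), Antitone lam →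
  ∑ i, lam i = a * b → ((∀ i, 0 < lam i) ∨ n ≤ Z * X ^ 2) → 1 ≤ R → R + 1 < n →
  w = dn lam 1 → Z ^ 2 ≤ w → w < (Z + 1) ^ 2 →
  1 ≤ K → 16 * K + 16 ≤ X → X ≤ Z → 4 * w ≤ X ^ K → 100 * K * ((Z + 1) * X) ≤ a →
  a + Z ≤ b → Z * X ^ 2 + 2 ≤ a → 1 ≤ a0 → a0 < a → a + a0 * (a0 + 2) ≤ w → 3 * (b0 + 1) ≤ a →
  (∀ i : Fin n, 1 ≤ (i : ℕ) → nu i ≤ lam i) →
  (∀ i : Fin n, 1 ≤ (i : ℕ) → ex lam ((i : ℕ) + 1) ≤ nu i) → w = dn nu 1 + a →
  (n ≤ Z * X ^ 2 → 2 * ((w + 1) ^ ((R + 1) * (Z * X ^ 2)) *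
    gt (n - R) (Z * X ^ 2 + 1) (low R nu)) ≤ plethMult b0 a0 n nu) →
  plethMult a b n lam ≤ plethMult b a n lam

/-- **(D9)** the theorem near the diagonal. -/
def DiagS : Prop := ∃ (C : ℝ) (c : ℕ), 0 < C ∧ ∀ a b : ℕ, a ≤ b →
  ∀ (n : ℕ) (lam : Fin n → ℕ), 3 * a ≤ dn lam 1 → dn lam 1 ≤ (b - a) ^ 2 →
  C * (1 + Real.log a) ^ c * (dn lam 1 : ℝ) ≤ (a : ℝ) ^ 2 →
  plethMult a b n lam ≤ plethMult b a n lam

end Vale.Agent.P181.DG
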