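import Vale.Agent.P181.DG.Defs

set_option autoImplicit false

/-!
# P181, DG: the literals of the numeric part near the diagonal (compare `H467.NT.HyG`)
-/

namespace Vale.Agent.P181.DG

open Vale.Agent.P181.T4 (HW ex low)
open Vale.Agent.P181.H280 (plethMult)
open Vale.Agent.P181.H463 (gt)
open Vale.Agent.P181.PL (dn)

/-- The hypotheses near the diagonal: compared with `H467.NT.HyG`, `a + √w ≤ b ≤ 5 a` replaces
`4 a ≤ b`, and `√w X ^ 3000 ≤ D_2`, `3 a ≤ w` replace `2 a ≤ D_2`. -/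
def HyD (a b n X : ℕ) (lam : Fin n → ℕ) : Prop :=
  Antitone lam ∧ ∑ i, lam i = a * b ∧ (∀ i, 0 < lam i) ∧ n ≤ a ∧ a ≤ b ∧ b ≤ 5 * a ∧
    dn lam 1 ≤ (b - a) ^ 2 ∧ X ^ 20000 ≤ a ∧ 10 ^ 12 * (1 + Real.log a) ^ 7 ≤ X ∧
    dn lam 1 * X ^ 6000 ≤ dn lam 2 ^ 2 ∧ a < ex lam 1 ∧ 3 * a ≤ dn lam 1 ∧
    dn lam 1 * X ^ 13000 ≤ a ^ 2

/-- `HyD`, and the tail behind row `R` is spread and heavy. -/
def HyDR (a b n X R : ℕ) (lam : Fin n → ℕ) : Prop :=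
  HyD a b n X lam ∧ 3 ≤ R ∧ R < n ∧ R ≤ X ^ 14 ∧ X ^ 13 * ex lam R ≤ dn lam R ∧
    dn lam 2 ≤ X ^ 2600 * dn lam R

/-- From `LBL` and `AsmR`, as `Heavy3G`. -/
def Heavy3D : Prop := ∀ (a b n X R : ℕ) (lam : Fin n → ℕ), HyDR a b n X R lam →
  X ^ 2 * dn lam 2 ≤ dn lam 1 → plethMult a b n lam ≤ plethMult b a n lam

/-- From `LBI` and `AsmR`, as `Heavy4G`. -/
def Heavy4D : Prop := ∀ (a b n X R : ℕ) (lam : Fin n → ℕ), HyDR a b n X R lam →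
  dn lam 1 < X ^ 2 * dn lam 2 → plethMult a b n lam ≤ plethMult b a n lam

/-- The tail behind row `R` is light; from `LBC`, `LBR` and `AsmR`. -/
def LightD : Prop := ∀ (a b n X R : ℕ) (lam : Fin n → ℕ), HyD a b n X lam → 3 ≤ R →
  R ≤ X ^ 14 → X ^ 2550 * dn lam R ≤ ex lam 2 → plethMult a b n lam ≤ plethMult b a n lam

/-- **(D9)** the theorem near the diagonal (this form replaces `DiagS`). -/
def DiagR : Prop := ∃ (C : ℝ) (c : ℕ), 0 < C ∧ ∀ a b : ℕ, a ≤ b →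
  ∀ (n : ℕ) (lam : Fin n → ℕ), 3 * a ≤ dn lam 1 →
  C * (1 + Real.log a) ^ c * (dn lam 1 : ℝ) ≤ ((b : ℝ) - a) ^ 2 →
  C * (1 + Real.log a) ^ c * (dn lam 1 : ℝ) ≤ (a : ℝ) ^ 2 →
  plethMult a b n lam ≤ plethMult b a n lam

end Vale.Agent.P181.DG
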